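import Vale.Agent.P355.H129W.Ev

/-! Kernel checker for the two Gram blocks of a label type. -/

namespace Vale.Agent.P355.H129W

open Finset Vale.Agent.P355
open Vale.Agent.P355.H138 hiding Fg cv
open Vale.Agent.P355.H693.Inj hiding okL
open Vale.Agent.P355.H129 (dg Gm Gm_comm psdCk psdCk_nonneg psdCk_bdd)
open Vale.Agent.P355.H387 (NM toM Cls biasC f9 f6 seq seq_eq CT AF AT pb loadL loadL_sound
  evL eqT eqT_sound zeroT)
open Vale.Agent.P355.H129V (CL arrL Fg okL wtL cs cv sw rowL smag smag_eq offb offb_eq p6 p6_eq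
  qd qd_succ dg_zero)

variable {F : Bool → Mt → ℝ}

/-- entry of a list. -/
noncomputable def nth {α : Type} (d : α) (L : List α) : ℕ → α :=
  List.rec (motive := fun _ => ℕ → α) (fun _ => d)
    (fun a _ ih n => Nat.rec (motive := fun _ => α) a (fun m _ => ih m) n) L

/-- entry of a table of patterns. -/
noncomputable def tg (PT : List (List (List (ℕ × ℕ × ℕ)))) (r r' : ℕ) : List (ℕ × ℕ × ℕ) :=
  nth [] (nth [] PT r) r'

/-- the table belongs to `l` labels. -/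
def TOK (PT : List (List (List (ℕ × ℕ × ℕ)))) (l : ℕ) : Prop :=
  ∀ r < 4, ∀ r' < 4, tg PT r r' = (patU l (r + 1) (r' + 1)).map en

/-- one pair. -/
noncomputable def pair (ct : CT) (PR PC : List (List (List (ℕ × ℕ × ℕ)))) (oU2 A B : ℕ)
    (fk f' : Fg) (dd u0 u1 R S : ℕ) (P Q : AT) (k : ℕ → ℕ → AT → AT → Bool) : Bool :=
  seq (offb fk.b f'.b) fun off =>
  seq (Nat.mul dd (p6 fk.b f'.b)) fun m =>
  smag (Nat.mul m (Nat.add u0 u1)) (Nat.mul m oU2) fun s0 w0 =>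
  smag (Nat.mul m u0) (Nat.mul m u1) fun s1 w1 =>
  rowL ct A B f' off w0 s0 w1 s1 (tg PC fk.s f'.s) (tg PR fk.r f'.r) R S P Q k

/-- value of a pair. -/
noncomputable def pv (F : Bool → Mt → ℝ) (lr lc : ℕ) (f f' : Fg) (q0 q1 : ℝ) : ℝ :=
  (par6 f.par f'.par : ℝ) *
    ((q0 + q1) * sF F lr lc (xor f.par f'.par) (fl4 f) (fl4 f') +
     (q0 - q1) * sF F lr lc (xor f.par f'.par) (fl4 f) (ng (fl4 f')))

theorem pair_sound (hF : Cls F) {ct : CT} {PR PC : List (List (List (ℕ × ℕ × ℕ)))} {lr lc : ℕ}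
    (hR : TOK PR lr) (hC : TOK PC lc) {oU : ℕ} {fk : Fg} (h : okU fk = true) {f' : Fg}
    (hp : okU f' = true) {dd u0 u1 R S : ℕ} {P Q : AT} {V W : ℝ} (hP : AF F ct P S V)
    (hQ : AF F ct Q S W) (k : ℕ → ℕ → AT → AT → Bool)
    (hk : pair ct PR PC (Nat.mul 2 oU) (Nat.add biasC (cv (mp t0) (mp t0) fk.P))
      (cv (mp t0) (mp t0) fk.N) fk f' dd u0 u1 R S P Q k = true) :
    ∃ R' S' P' Q' V' W', AF F ct P' S' V' ∧ AF F ct Q' S' W' ∧
      V' - W' = V - W + (dd : ℝ) * pv F lr lc fk f' ((u0 : ℝ) - oU) ((u1 : ℝ) - oU) ∧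
        k R' S' P' Q' = true := by
  obtain ⟨-, -, p3, p4, -⟩ := ok_spec h
  obtain ⟨-, -, q3, q4, -⟩ := ok_spec hp
  have hpR : ((p6 fk.b f'.b : ℕ) : ℝ) = (par6 fk.par f'.par : ℝ) := by
    exact_mod_cast congrArg (fun z : ℤ => (z : ℝ)) (p6_eq fk f')
  unfold pair at hk
  simp only [seq_eq] at hk
  rw [offb_eq, hC fk.s p4 f'.s q4, hR fk.r p3 f'.r q3] at hk
  generalize hm : Nat.mul dd (p6 fk.b f'.b) = m at hk
  have hmR : (m : ℝ) = (dd : ℝ) * (par6 fk.par f'.par : ℝ) := by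
    rw [← hm, ← hpR]
    show ((dd * p6 fk.b f'.b : ℕ) : ℝ) = _
    push_cast; ring
  obtain ⟨s0, w0, e1, e1'⟩ := smag_eq (Nat.mul m (Nat.add u0 u1)) (Nat.mul m (Nat.mul 2 oU))
    (fun s0 w0 =>
      smag (Nat.mul m u0) (Nat.mul m u1) fun s1 w1 =>
      rowL ct (Nat.add biasC (cv (mp t0) (mp t0) fk.P)) (cv (mp t0) (mp t0) fk.N)
        f' (cond (xor fk.par f'.par) pb 0) w0 s0 w1 s1
        ((patU lc (fk.s + 1) (f'.s + 1)).map en) ((patU lr (fk.r + 1) (f'.r + 1)).map en)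
        R S P Q k)
  rw [e1] at hk
  obtain ⟨s1, w1, e2, e2'⟩ := smag_eq (Nat.mul m u0) (Nat.mul m u1)
    (fun s1 w1 =>
      rowL ct (Nat.add biasC (cv (mp t0) (mp t0) fk.P)) (cv (mp t0) (mp t0) fk.N)
        f' (cond (xor fk.par f'.par) pb 0) w0 s0 w1 s1
        ((patU lc (fk.s + 1) (f'.s + 1)).map en) ((patU lr (fk.r + 1) (f'.r + 1)).map en)
        R S P Q k)
  rw [e2] at hk
  obtain ⟨R1, S1, P1, Q1, V1, W1, a1, a2, a3, a4⟩ :=
    rowL_sound hF h hp (xor fk.par f'.par) w0 s0 w1 s1 k _ _ R S P Q V W hP hQ hk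
  refine ⟨R1, S1, P1, Q1, V1, W1, a1, a2, ?_, a4⟩
  rw [a3, vR_eq hF lr lc _ h hp, e1', e2']
  unfold pv
  have c1 : ∀ a b : ℕ, ((Nat.mul a b : ℕ) : ℝ) = (a : ℝ) * b := fun a b => Nat.cast_mul a b
  have c2 : ∀ a b : ℕ, ((Nat.add a b : ℕ) : ℝ) = (a : ℝ) + b := fun a b => Nat.cast_add a b
  simp only [c1, c2, hmR]
  push_cast
  ring

/-- the row of a flag: the first `n` flags of `L`, then the flag itself. -/
noncomputable def rowN (ct : CT) (PR PC : List (List (List (ℕ × ℕ × ℕ)))) (w oU2 MW A B : ℕ)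
    (fk : Fg) (n : ℕ) :
    List Fg → ℕ → ℕ → ℕ → ℕ → AT → AT → (ℕ → AT → AT → Bool) → Bool :=
  Nat.rec (motive := fun _ => List Fg → ℕ → ℕ → ℕ → ℕ → AT → AT → (ℕ → AT → AT → Bool) → Bool)
    (fun _ U0 U1 R S P Q k =>
      seq (Nat.land U0 MW) fun u0 => seq (Nat.land U1 MW) fun u1 =>
      pair ct PR PC oU2 A B fk fk 1 u0 u1 R S P Q fun _ S' P' Q' => k S' P' Q')
    (fun _ ih L U0 U1 R S P Q k => List.rec (motive := fun _ => Bool) false
      (fun f' L' _ =>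
      seq (Nat.land U0 MW) fun u0 => seq (Nat.land U1 MW) fun u1 =>
      pair ct PR PC oU2 A B fk f' 2 u0 u1 R S P Q fun R' S' P' Q' =>
      seq (Nat.shiftRight U0 w) fun V0 => seq (Nat.shiftRight U1 w) fun V1 =>
      ih L' V0 V1 R' S' P' Q' k) L) n

/-- value of a row. -/
noncomputable def rv' (F : Bool → Mt → ℝ) (lr lc w oU : ℕ) (fk : Fg) (n : ℕ)
    (L : List Fg) (U0 U1 : ℕ) : ℝ :=
  ∑ l ∈ range n, 2 * pv F lr lc fk (L.getD l default) (qd w oU U0 l) (qd w oU U1 l)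
    + pv F lr lc fk fk (qd w oU U0 n) (qd w oU U1 n)

theorem rowN_sound (hF : Cls F) {ct : CT} {PR PC : List (List (List (ℕ × ℕ × ℕ)))} {lr lc : ℕ}
    (hR : TOK PR lr) (hC : TOK PC lc) {w oU : ℕ} {fk : Fg} (h : okU fk = true)
    (k : ℕ → AT → AT → Bool) (n : ℕ) :
    ∀ (L : List Fg) (_ : ∀ g ∈ L, okU g = true) (U0 U1 R S : ℕ) (P Q : AT)
      (V W : ℝ), AF F ct P S V → AF F ct Q S W →
      rowN ct PR PC w (Nat.mul 2 oU) (2 ^ w - 1) (Nat.add biasC (cv (mp t0) (mp t0) fk.P))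
        (cv (mp t0) (mp t0) fk.N) fk n L U0 U1 R S P Q k = true →
      ∃ S' P' Q' V' W', AF F ct P' S' V' ∧ AF F ct Q' S' W' ∧
        V' - W' = V - W + rv' F lr lc w oU fk n L U0 U1 ∧ k S' P' Q' = true := by
  induction n with
  | zero =>
    intro L hL U0 U1 R S P Q V W hP hQ hk
    have hk' : (seq (Nat.land U0 (2 ^ w - 1)) fun u0 => seq (Nat.land U1 (2 ^ w - 1)) fun u1 =>
      pair ct PR PC (Nat.mul 2 oU) (Nat.add biasC (cv (mp t0) (mp t0) fk.P))
        (cv (mp t0) (mp t0) fk.N) fk fk 1 u0 u1 R S P Q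
        fun _ S' P' Q' => k S' P' Q') = true := hk
    simp only [seq_eq, dg_zero] at hk'
    obtain ⟨R', S', P', Q', V', W', a1, a2, a3, a4⟩ := pair_sound hF hR hC h h hP hQ _ hk'
    refine ⟨S', P', Q', V', W', a1, a2, ?_, a4⟩
    rw [a3]
    unfold rv' qd
    rw [sum_range_zero]
    push_cast
    ring
  | succ n ih =>
    intro L hL U0 U1 R S P Q V W hP hQ hk
    cases L with
    | nil => exact absurd hk (by simp [rowN])
    | cons f' L =>
      have hk' : (seq (Nat.land U0 (2 ^ w - 1)) fun u0 => seq (Nat.land U1 (2 ^ w - 1)) fun u1 =>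
        pair ct PR PC (Nat.mul 2 oU) (Nat.add biasC (cv (mp t0) (mp t0) fk.P))
          (cv (mp t0) (mp t0) fk.N) fk f' 2 u0 u1 R S P Q fun R' S' P' Q' =>
        seq (Nat.shiftRight U0 w) fun V0 => seq (Nat.shiftRight U1 w) fun V1 =>
        rowN ct PR PC w (Nat.mul 2 oU) (2 ^ w - 1) (Nat.add biasC (cv (mp t0) (mp t0) fk.P))
          (cv (mp t0) (mp t0) fk.N) fk n L V0 V1 R' S' P' Q' k) = true := hk
      simp only [seq_eq, dg_zero] at hk'
      obtain ⟨R1, S1, P1, Q1, V1, W1, a1, a2, a3, a4⟩ :=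
        pair_sound hF hR hC h (hL f' List.mem_cons_self) hP hQ _ hk'
      obtain ⟨S2, P2, Q2, V2, W2, b1, b2, b3, b4⟩ :=
        ih L (fun g hg => hL g (List.mem_cons_of_mem _ hg)) _ _ _ _ _ _ _ _ a1 a2 a4
      refine ⟨S2, P2, Q2, V2, W2, b1, b2, ?_, b4⟩
      rw [b3, a3]
      unfold rv'
      rw [Finset.sum_range_succ']
      simp only [qd_succ, List.getD_cons_succ, List.getD_cons_zero]
      unfold qd
      push_cast
      ring

/-- rows: (U0, U1, record). -/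
abbrev RT : Type := ℕ × ℕ × ℕ

/-- rows. -/
noncomputable def rowsG (ct : CT) (PR PC : List (List (List (ℕ × ℕ × ℕ)))) (w oU2 MW a0 c0 : ℕ)
    (fl : List Fg) (T : List RT) :
    List Fg → ℕ → ℕ → AT → AT → (ℕ → AT → AT → Bool) → Bool :=
  List.rec (motive := fun _ => List Fg → ℕ → ℕ → AT → AT → (ℕ → AT → AT → Bool) → Bool)
    (fun _ _ S P Q k => k S P Q)
    (fun e _ ih K i S P Q k => List.rec (motive := fun _ => Bool) false
      (fun f K' _ => cs a0 c0 f.P 0 fun Kp => cs a0 c0 f.N 0 fun B =>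
        seq (Nat.add biasC Kp) fun A =>
        rowN ct PR PC w oU2 MW A B f i fl e.1 e.2.1 e.2.2 S P Q
          fun S' P' Q' => seq (Nat.succ i) fun i' => ih K' i' S' P' Q' k) K) T

/-- value of the rows. -/
noncomputable def Rvs (F : Bool → Mt → ℝ) (lr lc w oU : ℕ) (fl : List Fg) (T : List RT)
    (K : List Fg) (i : ℕ) : ℝ :=
  ∑ a ∈ range T.length, rv' F lr lc w oU (K.getD a default) (i + a) fl (T.getD a default).1
    (T.getD a default).2.1

theorem rowsG_sound (hF : Cls F) {ct : CT} {PR PC : List (List (List (ℕ × ℕ × ℕ)))} {lr lc : ℕ}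
    (hR : TOK PR lr) (hC : TOK PC lc) {w oU : ℕ} {fl : List Fg}
    (hfl : ∀ g ∈ fl, okU g = true) (k : ℕ → AT → AT → Bool) (T : List RT) :
    ∀ (K : List Fg) (_ : ∀ g ∈ K, okU g = true) (i S : ℕ) (P Q : AT) (V W : ℝ),
      AF F ct P S V → AF F ct Q S W →
      rowsG ct PR PC w (Nat.mul 2 oU) (2 ^ w - 1) (pr t0) (pc t0) fl T K i S P Q k = true →
      ∃ S' P' Q' V' W', AF F ct P' S' V' ∧ AF F ct Q' S' W' ∧
        V' - W' = V - W + Rvs F lr lc w oU fl T K i ∧ k S' P' Q' = true := by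
  induction T with
  | nil =>
    intro K hK i S P Q V W hP hQ hk
    exact ⟨S, P, Q, V, W, hP, hQ, by simp [Rvs], hk⟩
  | cons e T ih =>
    intro K hK i S P Q V W hP hQ hk
    cases K with
    | nil => exact absurd hk (by simp [rowsG])
    | cons f K =>
      have hf := hK f List.mem_cons_self
      obtain ⟨q1, q2, q3, q4, -⟩ := ok_spec hf
      have hk' : (cs (pr t0) (pc t0) f.P 0 fun Kp => cs (pr t0) (pc t0) f.N 0 fun B =>
        seq (Nat.add biasC Kp) fun A =>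
        rowN ct PR PC w (Nat.mul 2 oU) (2 ^ w - 1) A B f i fl e.1 e.2.1 e.2.2
          S P Q fun S' P' Q' => seq (Nat.succ i) fun i' =>
            rowsG ct PR PC w (Nat.mul 2 oU) (2 ^ w - 1) (pr t0) (pc t0) fl T K i' S' P' Q' k)
            = true := hk
      rw [cs_eq (pkR t0) (pkC t0) q3 q4 _ q1, cs_eq (pkR t0) (pkC t0) q3 q4 _ q2,
        seq_eq, Nat.zero_add, Nat.zero_add] at hk'
      obtain ⟨S1, P1, Q1, V1, W1, a1, a2, a3, a4⟩ :=
        rowN_sound hF hR hC hf _ _ fl hfl _ _ _ _ _ _ _ _ hP hQ hk'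
      rw [seq_eq] at a4
      obtain ⟨S2, P2, Q2, V2, W2, b1, b2, b3, b4⟩ :=
        ih K (fun g hg => hK g (List.mem_cons_of_mem _ hg)) _ _ _ _ _ _ a1 a2 a4
      refine ⟨S2, P2, Q2, V2, W2, b1, b2, ?_, b4⟩
      rw [b3, a3]
      unfold Rvs
      rw [List.length_cons, Finset.sum_range_succ']
      simp only [List.getD_cons_succ, List.getD_cons_zero, add_zero]
      have e : ∀ a, Nat.succ i + a = i + (a + 1) := fun a => by omega
      simp only [e]
      ring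

/-- the check of a chunk of rows (starting with row `i`). -/
noncomputable def ckU (ct : CT) (PR PC : List (List (List (ℕ × ℕ × ℕ)))) (fl : List Fg)
    (w oU i : ℕ) (T : List RT) (out : List (ℕ × ℕ)) : Bool :=
  seq (Nat.sub (Nat.pow 2 w) 1) fun MW => seq (Nat.mul 2 oU) fun oU2 =>
  seq (pr t0) fun a0 => seq (pc t0) fun c0 =>
  rowsG ct PR PC w oU2 MW a0 c0 fl T (fl.drop i) i 0 (zeroT ct) (zeroT ct) fun S P Q =>
    loadL out S Q P fun S' Q' P' => cond (Nat.blt S' 9223372036854775808) (eqT P' Q') false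

theorem ckU_sound (hF : Cls F) {ct : CT} {PR PC : List (List (List (ℕ × ℕ × ℕ)))} {lr lc : ℕ}
    (hR : TOK PR lr) (hC : TOK PC lc) {w oU : ℕ} {fl : List Fg}
    (hfl : fl.all okU = true) {i : ℕ} {T : List RT}
    {out : List (ℕ × ℕ)} (h : ckU ct PR PC fl w oU i T out = true) :
    Rvs F lr lc w oU fl T (fl.drop i) i = evL F ct out := by
  unfold ckU at h
  simp only [seq_eq] at h
  rw [List.all_eq_true] at hfl
  obtain ⟨S1, P1, Q1, V1, W1, a1, a2, a3, a4⟩ := rowsG_sound hF hR hC hfl _ T (fl.drop i)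
    (fun g hg => hfl g (List.mem_of_mem_drop hg)) i 0 _ _ 0 0 (H387.AF.zero ct) (H387.AF.zero ct) h
  obtain ⟨S2, Q2, P2, W2, V2, b1, b2, b3, b4⟩ := loadL_sound _ _ _ _ _ _ _ a2 a1 a4
  cases hz : Nat.blt S2 9223372036854775808 with
  | false => rw [hz] at b4; simp at b4
  | true =>
    rw [hz] at b4
    simp only [cond_true] at b4
    have hS : S2 < 2 ^ 63 := by
      rw [Nat.blt_eq] at hz
      norm_num; exact hz
    have := eqT_sound b2 b1 hS hS b4
    linarith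

end Vale.Agent.P355.H129W
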