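import Vale.Agent.P355.H129W.Fg

/-! Products of flags: numbers, patterns, insertion. -/

namespace Vale.Agent.P355.H129W

open Finset Vale.Agent.P355
open Vale.Agent.P355.H138 hiding Fg cv
open Vale.Agent.P355.H693.Inj hiding okL
open Vale.Agent.P355.H387 (NM toM Enc Cls ofD df df_cast ofD_df biasC biasC_sum
  f9 f6 seq seq_eq idx_lt7 tm tm_sound CT AF AT pb)
open Vale.Agent.P355.H790.Br4 (toM4 GP4 push_toM4 wt5 abs_GP4_le GP4_sum)
open Vale.Agent.P355.H129V (CL arrL Fg okL wtL cs cv tmS tmS_sound sw sw_mul colL rowL)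

/-- product matrix: difference (`s = false`) or sum. -/
def Mc (s : Bool) (a0 c0 a c : ℕ → ℕ) (f f' : Fg) : NM := fun i j =>
  GP4 a0 c0 f.arr i j + (if s then GP4 a c f'.arr i j else - GP4 a c f'.arr i j)

theorem Mc_bd (s : Bool) (a0 c0 a c : ℕ → ℕ) {f f' : Fg} (h : okU f = true) (h' : okU f' = true)
    (i j : ℕ) : |Mc s a0 c0 a c f f' i j| ≤ 31 := by
  have h1 := (abs_GP4_le a0 c0 f.arr i j).trans (wt5_arr h)
  have h2 := (abs_GP4_le a c f'.arr i j).trans (wt5_arr h')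
  rw [abs_le] at h1 h2 ⊢
  unfold Mc
  cases s
  · simp only [Bool.false_eq_true, if_false]; constructor <;> linarith
  · simp only [if_true]; constructor <;> linarith

theorem code_Mc (s : Bool) {a0 c0 a c : ℕ → ℕ} (ha0 : ∀ i < 5, a0 i < 7) (hc0 : ∀ i < 5, c0 i < 7)
    (ha : ∀ i < 5, a i < 7) (hc : ∀ i < 5, c i < 7) {f f' : Fg} (h : okU f = true)
    (h' : okU f' = true) :
    (ofD 49 (df (Mc s a0 c0 a c f f')) : ℤ) = biasC + ((cv a0 c0 f.P : ℤ) - cv a0 c0 f.N)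
      + (if s then ((cv a c f'.P : ℤ) - cv a c f'.N) else - ((cv a c f'.P : ℤ) - cv a c f'.N)) := by
  obtain ⟨p1, p2, p3, p4, -⟩ := ok_spec h
  obtain ⟨q1, q2, q3, q4, -⟩ := ok_spec h'
  rw [ofD_df _ fun i _ j _ => Mc_bd s a0 c0 a c h h' i j, biasC_sum]
  have e1 : ∀ (a c : ℕ → ℕ) (_ : ∀ i < 5, a i < 7) (_ : ∀ i < 5, c i < 7) (f : Fg)
      (_ : okU f = true), ∑ i ∈ range 7, ∑ j ∈ range 7, GP4 a c f.arr i j * (64 : ℤ) ^ (7 * i + j)
      = (cv a c f.P : ℤ) - cv a c f.N := by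
    intro a c ha hc f hf
    obtain ⟨r1, r2, r3, r4, -⟩ := ok_spec hf
    rw [GP4_sum a c ha hc, cv_sum r3 r4 r1, cv_sum r3 r4 r2, ← sum_sub_distrib]
    refine sum_congr rfl fun i _ => ?_
    rw [← sum_sub_distrib]
    refine sum_congr rfl fun j _ => ?_
    unfold Fg.arr; ring
  rw [← e1 a0 c0 ha0 hc0 f h, ← e1 a c ha hc f' h']
  cases s
  · simp only [Bool.false_eq_true, if_false]
    rw [← sum_neg_distrib, ← sum_add_distrib, ← sum_add_distrib]
    refine sum_congr rfl fun i _ => ?_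
    rw [← sum_neg_distrib, ← sum_add_distrib, ← sum_add_distrib]
    refine sum_congr rfl fun j _ => ?_
    unfold Mc
    simp only [Bool.false_eq_true, if_false]
    ring
  · simp only [if_true]
    rw [← sum_add_distrib, ← sum_add_distrib]
    refine sum_congr rfl fun i _ => ?_
    rw [← sum_add_distrib, ← sum_add_distrib]
    refine sum_congr rfl fun j _ => ?_
    unfold Mc
    simp only [if_true]
    ring

theorem enc_sub {a0 c0 a c : ℕ → ℕ} (ha0 : ∀ i < 5, a0 i < 7) (hc0 : ∀ i < 5, c0 i < 7)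
    (ha : ∀ i < 5, a i < 7) (hc : ∀ i < 5, c i < 7) {f f' : Fg} (h : okU f = true)
    (h' : okU f' = true) :
    Enc (Nat.sub (Nat.add (Nat.add biasC (cv a0 c0 f.P)) (cv a c f'.N))
      (Nat.add (cv a0 c0 f.N) (cv a c f'.P))) (Mc false a0 c0 a c f f') := by
  refine ⟨?_, fun i _ j _ => Mc_bd false a0 c0 a c h h' i j⟩
  have h1 := code_Mc false ha0 hc0 ha hc h h'
  simp only [Bool.false_eq_true, if_false] at h1
  show biasC + cv a0 c0 f.P + cv a c f'.N - (cv a0 c0 f.N + cv a c f'.P) = _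
  generalize ofD 49 (df (Mc false a0 c0 a c f f')) = Y at h1 ⊢
  omega

theorem enc_add {a0 c0 a c : ℕ → ℕ} (ha0 : ∀ i < 5, a0 i < 7) (hc0 : ∀ i < 5, c0 i < 7)
    (ha : ∀ i < 5, a i < 7) (hc : ∀ i < 5, c i < 7) {f f' : Fg} (h : okU f = true)
    (h' : okU f' = true) :
    Enc (Nat.sub (Nat.add (Nat.add biasC (cv a0 c0 f.P)) (cv a c f'.P))
      (Nat.add (cv a0 c0 f.N) (cv a c f'.N))) (Mc true a0 c0 a c f f') := by
  refine ⟨?_, fun i _ j _ => Mc_bd true a0 c0 a c h h' i j⟩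
  have h1 := code_Mc true ha0 hc0 ha hc h h'
  simp only [if_true] at h1
  show biasC + cv a0 c0 f.P + cv a c f'.P - (cv a0 c0 f.N + cv a c f'.N) = _
  generalize ofD 49 (df (Mc true a0 c0 a c f f')) = Y at h1 ⊢
  omega

/-! ### Placements -/

/-- the placement in numbers. -/
def mp (t : T4) (i : ℕ) : ℕ :=
  if i = 0 then 0 else if i = 1 then t.1.val + 1 else if i = 2 then t.2.1.val + 1
    else if i = 3 then t.2.2.1.val + 1 else t.2.2.2.val + 1

theorem mp_lt (t : T4) : ∀ i < 5, mp t i < 7 := by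
  intro i _
  unfold mp
  have := t.1.isLt
  have := t.2.1.isLt
  have := t.2.2.1.isLt
  have := t.2.2.2.isLt
  split_ifs <;> omega

theorem mp_idx (t : T4) (p : Option (Fin 4)) : idx (p.map (ph t)) = mp t (idx p) := by
  rcases p with _ | i
  · rfl
  · fin_cases i <;> rfl

/-- packed rows. -/
def pr (t : T4) : ℕ :=
  42 * (t.1.val + 1) * 2 ^ 9 + 42 * (t.2.1.val + 1) * 2 ^ 18 + 42 * (t.2.2.1.val + 1) * 2 ^ 27
    + 42 * (t.2.2.2.val + 1) * 2 ^ 36
/-- packed columns. -/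
def pc (t : T4) : ℕ :=
  6 * (t.1.val + 1) * 2 ^ 6 + 6 * (t.2.1.val + 1) * 2 ^ 12 + 6 * (t.2.2.1.val + 1) * 2 ^ 18
    + 6 * (t.2.2.2.val + 1) * 2 ^ 24

theorem pk_tab : ∀ a b c d : Fin 6, ∀ i < 5, f9 (pr (a, b, c, d)) i = 42 * mp (a, b, c, d) i ∧
    f6 (pc (a, b, c, d)) i = 6 * mp (a, b, c, d) i := by decide +kernel

theorem pkR (t : T4) : PkR (pr t) (mp t) := fun i hi => (pk_tab t.1 t.2.1 t.2.2.1 t.2.2.2 i hi).1
theorem pkC (t : T4) : PkC (pc t) (mp t) := fun i hi => (pk_tab t.1 t.2.1 t.2.2.1 t.2.2.2 i hi).2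

/-- entry of a pattern in numbers. -/
def en (p : ℕ × T4) : ℕ × ℕ × ℕ := (p.1, pr p.2, pc p.2)

variable {F : Bool → Mt → ℝ}

/-- value of a product. -/
noncomputable def tv (F : Bool → Mt → ℝ) (b : Bool) (f f' : Fg) (C0 C1 : ℝ)
    (p q : T4) : ℝ :=
  C0 * F b (toM (Mc false (mp t0) (mp t0) (mp p) (mp q) f f')) +
  C1 * F b (toM (Mc true (mp t0) (mp t0) (mp p) (mp q) f f'))

/-- value of the columns. -/
noncomputable def vC (F : Bool → Mt → ℝ) (b : Bool) (f f' : Fg) (C0 C1 : ℝ) (m : ℕ)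
    (p : T4) (L : List (ℕ × T4)) : ℝ :=
  (L.map fun q => (m : ℝ) * (q.1 : ℝ) * tv F b f f' C0 C1 p q.2).sum

theorem colL_sound (hF : Cls F) {ct : CT} {f f' : Fg} (h : okU f = true) (h' : okU f' = true)
    (b : Bool) (w0 s0 w1 s1 m : ℕ) (p : T4) (k : ℕ → ℕ → AT → AT → Bool)
    (L : List (ℕ × T4)) :
    ∀ (R S : ℕ) (P Q : AT) (V W : ℝ), AF F ct P S V → AF F ct Q S W →
      colL ct (Nat.add biasC (cv (mp t0) (mp t0) f.P)) (cv (mp t0) (mp t0) f.N) f'
        (cond b pb 0) w0 s0 w1 s1 m (pr p) (L.map en) R S P Q k = true →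
      ∃ R' S' P' Q' V' W', AF F ct P' S' V' ∧ AF F ct Q' S' W' ∧
        V' - W' = V - W + vC F b f f' (sw s0 w0) (sw s1 w1) m p L ∧ k R' S' P' Q' = true := by
  obtain ⟨q1, q2, q3, q4, -⟩ := ok_spec h'
  induction L with
  | nil =>
    intro R S P Q V W hP hQ hk
    exact ⟨R, S, P, Q, V, W, hP, hQ, by simp [vC], hk⟩
  | cons q L ih =>
    intro R S P Q V W hP hQ hk
    set A := Nat.add biasC (cv (mp t0) (mp t0) f.P) with hA
    set B := cv (mp t0) (mp t0) f.N with hB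
    have hstep : colL ct A B f' (cond b pb 0) w0 s0 w1 s1 m (pr p) ((q :: L).map en) R S P Q k =
      (cs (pr p) (pc q.2) f'.P 0 fun Zp => cs (pr p) (pc q.2) f'.N 0 fun Zn =>
      seq (Nat.mul m q.1) fun mm => seq (Nat.mul mm w0) fun c0 => seq (Nat.mul mm w1) fun c1 =>
      seq (Nat.sub (Nat.add A Zn) (Nat.add B Zp)) fun X0 =>
      seq (Nat.land R 1099511627775) fun r0 =>
      tmS ct X0 (cond b pb 0) r0 c0 s0 P Q fun P1 Q1 =>
      seq (Nat.sub (Nat.add A Zp) (Nat.add B Zn)) fun X1 =>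
      seq (Nat.land (Nat.shiftRight R 40) 1099511627775) fun r1 =>
      tmS ct X1 (cond b pb 0) r1 c1 s1 P1 Q1 fun P2 Q2 =>
      seq (Nat.shiftRight R 80) fun R' =>
      seq (Nat.add S (Nat.add (Nat.succ c0) (Nat.succ c1))) fun S' =>
        colL ct A B f' (cond b pb 0) w0 s0 w1 s1 m (pr p) (L.map en) R' S' P2 Q2 k) := rfl
    rw [hstep, cs_eq (pkR p) (pkC q.2) q3 q4 _ q1, cs_eq (pkR p) (pkC q.2) q3 q4 _ q2] at hk
    simp only [seq_eq, Nat.zero_add] at hk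
    have hX0 := enc_sub (mp_lt t0) (mp_lt t0) (mp_lt p) (mp_lt q.2) h h'
    have hX1 := enc_add (mp_lt t0) (mp_lt t0) (mp_lt p) (mp_lt q.2) h h'
    obtain ⟨P1, Q1, V1, W1, a1, a2, a3, a4⟩ := tmS_sound hF hX0 b _ _ _ hP hQ _ hk
    obtain ⟨P2, Q2, V2, W2, b1, b2, b3, b4⟩ := tmS_sound hF hX1 b _ _ _ a1 a2 _ a4
    have hS : S + Nat.mul (Nat.mul m q.1) w0 + 1 + Nat.mul (Nat.mul m q.1) w1 + 1
        = Nat.add S (Nat.add (Nat.succ (Nat.mul (Nat.mul m q.1) w0))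
          (Nat.succ (Nat.mul (Nat.mul m q.1) w1))) := by
      show _ = S + ((Nat.mul (Nat.mul m q.1) w0 + 1) + (Nat.mul (Nat.mul m q.1) w1 + 1))
      ring
    rw [hS] at b1 b2
    obtain ⟨R', S', P', Q', V', W', c1, c2, c3, c4⟩ := ih _ _ _ _ _ _ b1 b2 b4
    refine ⟨R', S', P', Q', V', W', c1, c2, ?_, c4⟩
    rw [c3, b3, a3]
    unfold vC tv
    rw [List.map_cons, List.sum_cons]
    have e1 : (sw s0 (Nat.mul (Nat.mul m q.1) w0) : ℝ) = (m : ℝ) * (q.1 : ℝ) * (sw s0 w0 : ℝ) := by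
      have := sw_mul s0 (m * q.1) w0
      push_cast at this
      exact this
    have e2 : (sw s1 (Nat.mul (Nat.mul m q.1) w1) : ℝ) = (m : ℝ) * (q.1 : ℝ) * (sw s1 w1 : ℝ) := by
      have := sw_mul s1 (m * q.1) w1
      push_cast at this
      exact this
    rw [e1, e2]
    ring

/-- value of the rows. -/
noncomputable def vR (F : Bool → Mt → ℝ) (b : Bool) (f f' : Fg) (C0 C1 : ℝ)
    (Lc L : List (ℕ × T4)) : ℝ :=
  (L.map fun p => vC F b f f' C0 C1 p.1 p.2 Lc).sum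

theorem rowL_sound (hF : Cls F) {ct : CT} {f f' : Fg} (h : okU f = true) (h' : okU f' = true)
    (b : Bool) (w0 s0 w1 s1 : ℕ) (k : ℕ → ℕ → AT → AT → Bool)
    (Lc L : List (ℕ × T4)) :
    ∀ (R S : ℕ) (P Q : AT) (V W : ℝ), AF F ct P S V → AF F ct Q S W →
      rowL ct (Nat.add biasC (cv (mp t0) (mp t0) f.P)) (cv (mp t0) (mp t0) f.N) f'
        (cond b pb 0) w0 s0 w1 s1 (Lc.map en) (L.map en) R S P Q k = true →
      ∃ R' S' P' Q' V' W', AF F ct P' S' V' ∧ AF F ct Q' S' W' ∧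
        V' - W' = V - W + vR F b f f' (sw s0 w0) (sw s1 w1) Lc L ∧ k R' S' P' Q' = true := by
  induction L with
  | nil =>
    intro R S P Q V W hP hQ hk
    exact ⟨R, S, P, Q, V, W, hP, hQ, by simp [vR], hk⟩
  | cons p L ih =>
    intro R S P Q V W hP hQ hk
    obtain ⟨R1, S1, P1, Q1, V1, W1, a1, a2, a3, a4⟩ :=
      colL_sound hF h h' b w0 s0 w1 s1 p.1 p.2 _ Lc R S P Q V W hP hQ hk
    obtain ⟨R', S', P', Q', V', W', c1, c2, c3, c4⟩ := ih _ _ _ _ _ _ a1 a2 a4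
    refine ⟨R', S', P', Q', V', W', c1, c2, ?_, c4⟩
    rw [c3, a3]
    unfold vR
    rw [List.map_cons, List.sum_cons]
    ring

theorem toM_Mc (s : Bool) (e e' p q : T4) (f f' : Fg) :
    toM (Mc s (mp e) (mp e') (mp p) (mp q) f f') = fun i j =>
      push (ph e) (ph e') (fl4 f) i j + (if s then push (ph p) (ph q) (fl4 f') i j
        else - push (ph p) (ph q) (fl4 f') i j) := by
  unfold fl4
  rw [push_toM4 f.arr (ph e) (ph e') (mp e) (mp e') (mp_idx e) (mp_idx e'),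
    push_toM4 f'.arr (ph p) (ph q) (mp p) (mp q) (mp_idx p) (mp_idx q)]
  rfl

theorem sup_ng {r : ℕ} {n : Fl} (h : SupC r n) : SupC r (ng n) := fun i hi q => by
  show - n (some i) q = 0
  rw [h i hi q, neg_zero]

/-- **value of the products of two flags.** -/
theorem vR_eq (hF : Cls F) (lr lc : ℕ) (b : Bool) {f f' : Fg} (h : okU f = true)
    (h' : okU f' = true) (C0 C1 : ℝ) :
    vR F b f f' C0 C1 (patU lc (f.s + 1) (f'.s + 1)) (patU lr (f.r + 1) (f'.r + 1))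
      = C0 * sF F lr lc b (fl4 f) (fl4 f') + C1 * sF F lr lc b (fl4 f) (ng (fl4 f')) := by
  obtain ⟨-, -, p3, p4, -⟩ := ok_spec h
  obtain ⟨-, -, q3, q4, -⟩ := ok_spec h'
  have hn : tr (ng (fl4 f')) = ng (tr (fl4 f')) := rfl
  rw [sF_pat hF b p3 q3 p4 q4 (sup h) (sup h') (supT h) (supT h'),
    sF_pat hF b p3 q3 p4 q4 (sup h) (sup_ng (sup h')) (supT h)
      (by rw [hn]; exact sup_ng (supT h'))]
  unfold vR vC tv
  have key : ∀ (l : List (ℕ × T4)) (g g0 g1 : ℕ × T4 → ℝ),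
      (∀ p, g p = C0 * g0 p + C1 * g1 p) →
      (l.map g).sum = C0 * (l.map g0).sum + C1 * (l.map g1).sum := by
    intro l g g0 g1 hg
    induction l with
    | nil => simp
    | cons a l ih =>
      simp only [List.map_cons, List.sum_cons, ih, hg]
      ring
  refine key _ _ _ _ fun p => ?_
  rw [← mul_assoc, ← mul_assoc, mul_comm C0, mul_comm C1, mul_assoc, mul_assoc, ← mul_add,
    ← key (patU lc (f.s + 1) (f'.s + 1)) (fun q => (q.1 : ℝ) * (C0 *
      tF F b (fl4 f) (fl4 f') (ph t0) (ph t0) (ph p.2) (ph q.2) + C1 *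
      tF F b (fl4 f) (ng (fl4 f')) (ph t0) (ph t0) (ph p.2) (ph q.2))) _ _ (fun q => by ring)]
  have key2 : ∀ (l : List (ℕ × T4)) (g g' : ℕ × T4 → ℝ) (m : ℝ),
      (∀ q, g q = m * g' q) → (l.map g).sum = m * (l.map g').sum := by
    intro l g g' m hg
    induction l with
    | nil => simp
    | cons a l ih =>
      simp only [List.map_cons, List.sum_cons, ih, hg]
      ring
  refine key2 _ _ _ _ fun q => ?_
  have e1 : F b (toM (Mc false (mp t0) (mp t0) (mp p.2) (mp q.2) f f'))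
      = tF F b (fl4 f) (fl4 f') (ph t0) (ph t0) (ph p.2) (ph q.2) := by
    rw [toM_Mc]
    unfold tF
    congr 1
  have e2 : F b (toM (Mc true (mp t0) (mp t0) (mp p.2) (mp q.2) f f'))
      = tF F b (fl4 f) (ng (fl4 f')) (ph t0) (ph t0) (ph p.2) (ph q.2) := by
    rw [toM_Mc]
    unfold tF
    congr 1
    funext i j
    rw [push_ng]
    simp
  rw [e1, e2]
  ring

end Vale.Agent.P355.H129W
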