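import Vale.Agent.P355.H129W.Pat
import Vale.Agent.P355.H129V.Sos
import Vale.Agent.P355.H790.Br4

/-! Flags with up to four vertices on each side: lists of cells and their numbers. -/

namespace Vale.Agent.P355.H129W

open Finset Vale.Agent.P355
open Vale.Agent.P355.H138 hiding Fg cv
open Vale.Agent.P355.H693.Inj hiding okL
open Vale.Agent.P355.H387 (NM toM Enc Cls ofD df df_cast ofD_df biasC biasC_sum
  f9 f6 seq seq_eq idx_lt7)
open Vale.Agent.P355.H790.Br4 (toM4 GP4 push_toM4 wt5 abs_GP4_le GP4_sum)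
open Vale.Agent.P355.H129V (CL arrL Fg okL wtL arrL_nil arrL_cons arrL_nonneg arrL_sup cs cv)

/-- check of a flag. -/
def okU (f : Fg) : Bool :=
  okL f.r f.s f.P && (okL f.r f.s f.N && (Nat.ble f.r 3 && (Nat.ble f.s 3 &&
    Nat.ble (wtL f.P + wtL f.N) 15)))

/-- the flag as a matrix. -/
def fl4 (f : Fg) : Fl := toM4 f.arr

theorem ok_spec {f : Fg} (h : okU f = true) : okL f.r f.s f.P = true ∧ okL f.r f.s f.N = true ∧
    f.r < 4 ∧ f.s < 4 ∧ wtL f.P + wtL f.N ≤ 15 := by
  unfold okU at h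
  simp only [Bool.and_eq_true] at h
  obtain ⟨h1, h2, h3, h4, h5⟩ := h
  exact ⟨h1, h2, by have := Nat.le_of_ble_eq_true h3; omega,
    by have := Nat.le_of_ble_eq_true h4; omega, Nat.le_of_ble_eq_true h5⟩

theorem sup {f : Fg} (h : okU f = true) : SupC (f.r + 1) (fl4 f) := by
  obtain ⟨h1, h2, -⟩ := ok_spec h
  intro i hi q
  show arrL f.P (idx (some i)) _ - arrL f.N (idx (some i)) _ = 0
  have hx : idx (some i) = i.val + 1 := rfl
  rw [arrL_sup h1 _ _ (Or.inl (by omega)), arrL_sup h2 _ _ (Or.inl (by omega))]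
  rfl

theorem supT {f : Fg} (h : okU f = true) : SupC (f.s + 1) (tr (fl4 f)) := by
  obtain ⟨h1, h2, -⟩ := ok_spec h
  intro i hi q
  show arrL f.P _ (idx (some i)) - arrL f.N _ (idx (some i)) = 0
  have hx : idx (some i) = i.val + 1 := rfl
  rw [arrL_sup h1 _ _ (Or.inr (by omega)), arrL_sup h2 _ _ (Or.inr (by omega))]
  rfl

/-! ### Numbers -/

/-- packed positions. -/
def PkR (ra : ℕ) (a : ℕ → ℕ) : Prop := ∀ i < 5, f9 ra i = 42 * a i
/-- packed positions. -/
def PkC (cb : ℕ) (c : ℕ → ℕ) : Prop := ∀ j < 5, f6 cb j = 6 * c j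

theorem cs_eq {ra cb : ℕ} {a c : ℕ → ℕ} (hr : PkR ra a) (hc : PkC cb c) {r s : ℕ}
    (hr2 : r < 4) (hs2 : s < 4) (L : CL)
    (hL : okL r s L = true) : ∀ (acc : ℕ) (k : ℕ → Bool), cs ra cb L acc k = k (acc + cv a c L) := by
  induction L with
  | nil => intro acc k; rfl
  | cons e L ih =>
    intro acc k
    unfold okL at hL
    rw [List.all_cons, Bool.and_eq_true] at hL
    have h3 := hL.1
    simp only [Bool.and_eq_true] at h3
    obtain ⟨a1, a2, a3, a4⟩ := h3
    have a1' := Nat.eq_of_beq_eq_true a1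
    have a2' := Nat.le_of_ble_eq_true a2
    have a3' := Nat.eq_of_beq_eq_true a3
    have a4' := Nat.le_of_ble_eq_true a4
    have hstep : cs ra cb (e :: L) acc k =
      seq (Nat.add acc (Nat.shiftLeft e.2.2 (Nat.add (Nat.land (Nat.shiftRight ra e.1) 511)
        (Nat.land (Nat.shiftRight cb e.2.1) 63)))) fun acc' => cs ra cb L acc' k := rfl
    rw [hstep, seq_eq, ih hL.2]
    have h5 : Nat.land (Nat.shiftRight ra e.1) 511 = 42 * a (e.1 / 9) := by
      have := hr (e.1 / 9) (by omega)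
      unfold f9 at this
      rwa [a1'] at this
    have h6 : Nat.land (Nat.shiftRight cb e.2.1) 63 = 6 * c (e.2.1 / 6) := by
      have := hc (e.2.1 / 6) (by omega)
      unfold f6 at this
      rwa [a3'] at this
    rw [h5, h6]
    congr 1
    have h7 : cv a c (e :: L) = e.2.2 * 64 ^ (7 * a (e.1 / 9) + c (e.2.1 / 6)) + cv a c L := by
      unfold cv; rw [List.map_cons, List.sum_cons]
    rw [h7]
    show acc + Nat.shiftLeft e.2.2 (42 * a (e.1 / 9) + 6 * c (e.2.1 / 6)) + cv a c L = _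
    have h8 : Nat.shiftLeft e.2.2 (42 * a (e.1 / 9) + 6 * c (e.2.1 / 6))
        = e.2.2 * 2 ^ (42 * a (e.1 / 9) + 6 * c (e.2.1 / 6)) := Nat.shiftLeft_eq _ _
    have h9 : 42 * a (e.1 / 9) + 6 * c (e.2.1 / 6) = 6 * (7 * a (e.1 / 9) + c (e.2.1 / 6)) := by
      ring
    rw [h8, h9, pow_mul]
    norm_num
    ring

theorem cv_sum {a c : ℕ → ℕ} {r s : ℕ} (hr2 : r < 4) (hs2 : s < 4) {L : CL}
    (hL : okL r s L = true) :
    (cv a c L : ℤ) = ∑ i ∈ range 5, ∑ j ∈ range 5, arrL L i j * 64 ^ (7 * a i + c j) := by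
  induction L with
  | nil => simp [cv, arrL_nil]
  | cons e L ih =>
    unfold okL at hL
    rw [List.all_cons, Bool.and_eq_true] at hL
    have h3 := hL.1
    simp only [Bool.and_eq_true] at h3
    obtain ⟨a1, a2, a3, a4⟩ := h3
    have a1' := Nat.eq_of_beq_eq_true a1
    have a2' := Nat.le_of_ble_eq_true a2
    have a3' := Nat.eq_of_beq_eq_true a3
    have a4' := Nat.le_of_ble_eq_true a4
    have h7 : cv a c (e :: L) = e.2.2 * 64 ^ (7 * a (e.1 / 9) + c (e.2.1 / 6)) + cv a c L := by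
      unfold cv; rw [List.map_cons, List.sum_cons]
    rw [h7]
    push_cast
    rw [ih hL.2]
    simp only [arrL_cons, add_mul, sum_add_distrib]
    congr 1
    rw [sum_eq_single (e.1 / 9)]
    · rw [sum_eq_single (e.2.1 / 6)]
      · rw [if_pos ⟨a1'.symm, a3'.symm⟩]
      · intro j _ hj
        rw [if_neg, zero_mul]
        rintro ⟨-, h⟩
        omega
      · intro h; exact absurd (mem_range.2 (by omega)) h
    · intro i _ hi
      refine sum_eq_zero fun j _ => ?_
      rw [if_neg, zero_mul]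
      rintro ⟨h, -⟩
      omega
    · intro h; exact absurd (mem_range.2 (by omega)) h

/-- sums of all entries. -/
theorem arrL_tot (L : CL) : ∑ i ∈ range 5, ∑ j ∈ range 5, arrL L i j ≤ wtL L := by
  induction L with
  | nil => simp [arrL_nil, wtL]
  | cons e L ih =>
    simp only [arrL_cons, sum_add_distrib]
    have : wtL (e :: L) = e.2.2 + wtL L := by unfold wtL; rw [List.map_cons, List.sum_cons]
    rw [this]
    push_cast
    have h1 : ∑ i ∈ range 5, ∑ j ∈ range 5,
        (if e.1 = 9 * i ∧ e.2.1 = 6 * j then (e.2.2 : ℤ) else 0) ≤ e.2.2 := by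
      by_cases he : ∃ i0 < 5, e.1 = 9 * i0
      · obtain ⟨i0, hi0, hi⟩ := he
        rw [sum_eq_single i0]
        · by_cases he' : ∃ j0 < 5, e.2.1 = 6 * j0
          · obtain ⟨j0, hj0, hj⟩ := he'
            rw [sum_eq_single j0]
            · split_ifs <;> omega
            · intro j _ hne
              rw [if_neg]; rintro ⟨-, h⟩; omega
            · intro h; exact absurd (mem_range.2 hj0) h
          · rw [sum_eq_zero]
            · positivity
            · intro j hj
              rw [if_neg]; rintro ⟨-, h⟩; exact he' ⟨j, mem_range.1 hj, h⟩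
        · intro i _ hne
          refine sum_eq_zero fun j _ => ?_
          rw [if_neg]; rintro ⟨h, -⟩; omega
        · intro h; exact absurd (mem_range.2 hi0) h
      · rw [sum_eq_zero]
        · positivity
        · intro i hi
          refine sum_eq_zero fun j _ => ?_
          rw [if_neg]; rintro ⟨h, -⟩; exact he ⟨i, mem_range.1 hi, h⟩
    linarith

theorem wt5_arr {f : Fg} (h : okU f = true) : wt5 f.arr ≤ 15 := by
  obtain ⟨-, -, -, -, h5⟩ := ok_spec h
  unfold wt5
  have h1 : ∑ i ∈ range 5, ∑ j ∈ range 5, |f.arr i j|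
      ≤ ∑ i ∈ range 5, ∑ j ∈ range 5, (arrL f.P i j + arrL f.N i j) := by
    refine sum_le_sum fun i _ => sum_le_sum fun j _ => ?_
    unfold Fg.arr
    have a1 := arrL_nonneg f.P i j
    have a2 := arrL_nonneg f.N i j
    rw [abs_le]
    constructor <;> linarith
  simp only [sum_add_distrib] at h1
  have h2 := arrL_tot f.P
  have h3 := arrL_tot f.N
  have h4 : ((wtL f.P + wtL f.N : ℕ) : ℤ) ≤ 15 := by exact_mod_cast h5
  push_cast at h4
  linarith

end Vale.Agent.P355.H129W
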