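import Vale.Agent.P355.H129W.Tup

/-! Patterns of coincidence of the vertices of two flags. -/

namespace Vale.Agent.P355.H129W

open Finset Vale.Agent.P355 Vale.Agent.P355.H138 Vale.Agent.P355.H693.Inj
open Vale.Agent.P355.H387 (Cls)

set_option linter.unusedSectionVars false

variable {F : Bool → Mt → ℝ}

/-- the rows `≥ c` vanish. -/
def SupC (c : ℕ) (n : Fl) : Prop := ∀ i : Fin 4, c ≤ i.val → ∀ q, n (some i) q = 0

theorem push_congr {n : Fl} {c : ℕ} (h : SupC c n) {φ φ' : Fin 4 → Fin 6} (ψ : Fin 4 → Fin 6)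
    (hφ : ∀ i : Fin 4, i.val < c → φ i = φ' i) : push φ ψ n = push φ' ψ n := by
  funext p' q'
  unfold push
  refine Finset.sum_congr rfl fun p _ => ?_
  rcases p with _ | i
  · rfl
  · by_cases hi : i.val < c
    · refine Finset.sum_congr rfl fun q _ => ?_
      have e : (some i : Option (Fin 4)).map φ = (some i : Option (Fin 4)).map φ' := by
        show some (φ i) = some (φ' i)
        rw [hφ i hi]
      rw [e]
    · have h0 := h i (by omega)
      simp only [h0, ite_self]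

theorem mem_EL {l : ℕ} {t : T4} : t ∈ EL l ↔ In l t := by
  unfold EL
  rw [List.mem_filter]
  simp [AL_mem]

theorem EL_nodup (l : ℕ) : (EL l).Nodup := by
  unfold EL
  exact AL_nodup.filter _

attribute [local irreducible] EL AL

theorem In.zero {l : ℕ} {t : T4} (h : In l t) : In 0 t :=
  ⟨h.1, fun hh => absurd hh (by omega), fun hh => absurd hh (by omega)⟩

theorem c0_keep {ck cl i n : ℕ} {a : Fin 6} (hi : i < cl) (ha : a.val < ck) :
    (c0 ck cl i n a).1 = a := by
  unfold c0; rw [if_pos hi, if_pos ha]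

theorem exists_cn {ck cl : ℕ} (hk : ck ≤ 4) (hl : cl ≤ 4) {t : T4} (ht : In 0 t) :
    ∃ σ : Pm, (∀ p : Fin 6, p.val < ck → σ p = p) ∧
      ∀ i : Fin 4, i.val < cl → σ (ph t i) = ph (cn ck cl t) i := by
  obtain ⟨h1, h2⟩ := cL_ok t (mem_EL.2 ht) ck (List.mem_range.2 (by omega)) cl
    (List.mem_range.2 (by omega))
  obtain ⟨σ, hσ⟩ := ext_perm _ h1 h2
  have hf : ∀ p : Fin 6, p.val < ck → σ p = p := fun p hp => by
    refine hσ (p, p) ?_
    unfold cL
    rw [List.mem_append]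
    refine Or.inl (List.mem_map.2 ⟨p, List.mem_filter.2 ⟨List.mem_finRange p, ?_⟩, rfl⟩)
    simpa using hp
  refine ⟨σ, hf, fun i hi => ?_⟩
  have key : ∀ (a b : Fin 6), (a.val < ck → b = a) →
      (¬ a.val < ck → (a, b) ∈ cL ck cl t) → σ a = b := by
    intro a b h1 h2
    by_cases ha : a.val < ck
    · rw [h1 ha]; exact hf a ha
    · exact hσ (a, b) (h2 ha)
  have hm : ∀ (j : ℕ) (a b : Fin 6), j < cl → ¬ a.val < ck → (a, b) ∈ m1 ck cl j a b := by
    intro j a b hj ha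
    unfold m1
    rw [if_pos ⟨hj, ha⟩]
    exact List.mem_singleton.2 rfl
  fin_cases i
  · refine key t.1 (cn ck cl t).1 (fun ha => c0_keep hi ha) fun ha => ?_
    unfold cL
    rw [List.mem_append, List.mem_append]
    exact Or.inr (Or.inl (hm 0 _ _ hi ha))
  · refine key t.2.1 (cn ck cl t).2.1 (fun ha => c0_keep hi ha) fun ha => ?_
    unfold cL
    rw [List.mem_append, List.mem_append, List.mem_append]
    exact Or.inr (Or.inr (Or.inl (hm 1 _ _ hi ha)))
  · refine key t.2.2.1 (cn ck cl t).2.2.1 (fun ha => c0_keep hi ha) fun ha => ?_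
    unfold cL
    rw [List.mem_append, List.mem_append, List.mem_append, List.mem_append]
    exact Or.inr (Or.inr (Or.inr (Or.inl (hm 2 _ _ hi ha))))
  · refine key t.2.2.2 (cn ck cl t).2.2.2 (fun ha => c0_keep hi ha) fun ha => ?_
    unfold cL
    rw [List.mem_append, List.mem_append, List.mem_append, List.mem_append]
    exact Or.inr (Or.inr (Or.inr (Or.inr (hm 3 _ _ hi ha))))

/-- the product depends on the pattern only. -/
theorem tF_canon (hC : Cls F) (b : Bool) {n n' : Fl} {ck cl : ℕ} (hk : ck ≤ 4) (hl : cl ≤ 4)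
    (hn : SupC ck n) (hn' : SupC cl n') (ψ ψ' : Fin 4 → Fin 6) {t : T4} (ht : In 0 t) :
    tF F b n n' (ph t0) ψ (ph t) ψ' = tF F b n n' (ph t0) ψ (ph (cn ck cl t)) ψ' := by
  obtain ⟨σ, h1, h2⟩ := exists_cn hk hl ht
  rw [← tF_perm hC b n n' (ph t0) ψ (ph t) ψ' σ 1]
  have e1 : push (σ ∘ ph t0) (⇑(1 : Pm) ∘ ψ) n = push (ph t0) ψ n := by
    have : (⇑(1 : Pm) ∘ ψ) = ψ := rfl
    rw [this]
    refine push_congr hn ψ fun i hi => ?_
    refine h1 (ph t0 i) ?_
    have : (ph t0 i).val = i.val := by fin_cases i <;> rfl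
    rw [this]; exact hi
  have e2 : push (σ ∘ ph t) (⇑(1 : Pm) ∘ ψ') n' = push (ph (cn ck cl t)) ψ' n' := by
    have : (⇑(1 : Pm) ∘ ψ') = ψ' := rfl
    rw [this]
    exact push_congr hn' ψ' fun i hi => h2 i hi
  unfold tF
  rw [e1, e2]

/-- transposed flag. -/
def tr (n : Fl) : Fl := fun p q => n q p

theorem push_tr (φ ψ : Fin 4 → Fin 6) (n : Fl) (p q : Option (Fin 6)) :
    push φ ψ (tr n) p q = push ψ φ n q p := by
  unfold push tr
  rw [Finset.sum_comm]
  refine Finset.sum_congr rfl fun a _ => Finset.sum_congr rfl fun b _ => ?_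
  simp only [and_comm]

theorem tF_tr (hC : Cls F) (b : Bool) (n n' : Fl) (φ ψ φ' ψ' : Fin 4 → Fin 6) :
    tF F b (tr n) (tr n') φ ψ φ' ψ' = tF F b n n' ψ φ ψ' φ' := by
  unfold tF
  simp only [push_tr]
  exact hC.swap b (fun p q => push ψ φ n p q - push ψ' φ' n' p q)

/-! ### Sums -/

theorem sum_Pl (l : ℕ) (ψ : T4 → ℝ) : ∑ f : Pl l, ψ f.1 = ((EL l).map ψ).sum := by
  have h1 : ∑ f : Pl l, ψ f.1 = ∑ f ∈ (Finset.univ.filter fun t : T4 => In l t), ψ f := by
    rw [Finset.sum_subtype (Finset.univ.filter fun t : T4 => In l t)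
      (p := fun t => In l t) (by intro e; simp) ψ]
  have h2 : (Finset.univ.filter fun t : T4 => In l t) = (EL l).toFinset := by
    ext t
    rw [Finset.mem_filter, List.mem_toFinset, mem_EL]
    simp
  rw [h1, h2, List.sum_toFinset _ (EL_nodup l)]

/-- the patterns. -/
def patU (l ck cl : ℕ) : List (ℕ × T4) :=
  (((EL l).map (cn ck cl)).dedup).map fun t =>
    (@List.count T4 instBEqOfDecidableEq t ((EL l).map (cn ck cl)), t)

theorem sum_pat {l ck cl : ℕ} (ψ : T4 → ℝ) (h : ∀ t : T4, In l t → ψ t = ψ (cn ck cl t)) :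
    ∑ f : Pl l, ψ f.1 = ((patU l ck cl).map fun p => (p.1 : ℝ) * ψ p.2).sum := by
  have h1 : ∑ f : Pl l, ψ f.1 = ∑ f : Pl l, ψ (cn ck cl f.1) :=
    Finset.sum_congr rfl fun f _ => h f.1 f.2
  rw [h1, sum_Pl l fun t => ψ (cn ck cl t)]
  have h2 : ((EL l).map fun t => ψ (cn ck cl t)) = ((EL l).map (cn ck cl)).map ψ := by
    rw [List.map_map]; rfl
  rw [h2, Finset.sum_list_map_count]
  unfold patU
  rw [List.map_map]
  have h3 : ((EL l).map (cn ck cl)).toFinset = (((EL l).map (cn ck cl)).dedup).toFinset := by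
    ext t; simp
  rw [h3, List.sum_toFinset _ (List.nodup_dedup _)]
  refine congrArg List.sum (List.map_congr_left fun t _ => ?_)
  rw [nsmul_eq_mul]
  rfl

attribute [irreducible] patU

/-- **The sum over placements by patterns.** -/
theorem sF_pat (hC : Cls F) (b : Bool) {n n' : Fl} {lr lc ck cl dk dl : ℕ} (hk : ck ≤ 4)
    (hl : cl ≤ 4) (hk' : dk ≤ 4) (hl' : dl ≤ 4) (hn : SupC ck n) (hn' : SupC cl n')
    (hm : SupC dk (tr n)) (hm' : SupC dl (tr n')) :
    sF F lr lc b n n' = ((patU lr ck cl).map fun p => (p.1 : ℝ) *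
      ((patU lc dk dl).map fun q => (q.1 : ℝ) *
      tF F b n n' (ph t0) (ph t0) (ph p.2) (ph q.2)).sum).sum := by
  unfold sF
  have inner : ∀ φ : Fin 4 → Fin 6,
      ∑ g : Pl lc, tF F b n n' (ph t0) (ph t0) φ (ph g.1)
      = ((patU lc dk dl).map fun q => (q.1 : ℝ) *
        tF F b n n' (ph t0) (ph t0) φ (ph q.2)).sum := by
    intro φ
    refine sum_pat (fun g => tF F b n n' (ph t0) (ph t0) φ (ph g)) fun g hg => ?_
    have h1 := tF_canon hC b hk' hl' hm hm' (ph t0) φ hg.zero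
    rw [tF_tr hC, tF_tr hC] at h1
    exact h1
  have e1 : ∑ f : Pl lr, ∑ g : Pl lc, tF F b n n' (ph t0) (ph t0) (ph f.1) (ph g.1)
      = ∑ f : Pl lr, ((patU lc dk dl).map fun q => (q.1 : ℝ) *
        tF F b n n' (ph t0) (ph t0) (ph f.1) (ph q.2)).sum :=
    Finset.sum_congr rfl fun f _ => inner (ph f.1)
  rw [e1]
  refine sum_pat (fun f => ((patU lc dk dl).map fun q => (q.1 : ℝ) *
    tF F b n n' (ph t0) (ph t0) (ph f) (ph q.2)).sum) fun f hf => ?_
  refine congrArg List.sum (List.map_congr_left fun q _ => ?_)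
  rw [tF_canon hC b hk hl hn hn' (ph t0) (ph q.2) hf.zero]

end Vale.Agent.P355.H129W
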