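import Vale.Agent.P355.H693W.Sym

/-! Placements of up to four vertices on one side, `l` of them labels. -/

namespace Vale.Agent.P355.H129W

open Finset Vale.Agent.P355 Vale.Agent.P355.H138 Vale.Agent.P355.H693.Inj
open Vale.Agent.P355.H387 (Cls)
open Vale.Agent.P355.H693W (SqF PSDF sum4)

set_option linter.unusedSectionVars false

/-- four positions. -/
abbrev T4 : Type := Fin 6 × Fin 6 × Fin 6 × Fin 6

/-- the placement. -/
def ph (t : T4) : Fin 4 → Fin 6 := ![t.1, t.2.1, t.2.2.1, t.2.2.2]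

/-- different positions, the first `l` standard. -/
def In (l : ℕ) (t : T4) : Prop :=
  (t.1 ≠ t.2.1 ∧ t.1 ≠ t.2.2.1 ∧ t.1 ≠ t.2.2.2 ∧ t.2.1 ≠ t.2.2.1 ∧ t.2.1 ≠ t.2.2.2 ∧
    t.2.2.1 ≠ t.2.2.2) ∧ (0 < l → t.1 = 0) ∧ (1 < l → t.2.1 = 1)

instance (l : ℕ) (t : T4) : Decidable (In l t) := by unfold In; infer_instance

/-- placements. -/
abbrev Pl (l : ℕ) : Type := {t : T4 // In l t}

/-- standard placement. -/
def t0 : T4 := (0, 1, 2, 3)

theorem in_t0 (l : ℕ) : In l t0 := by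
  refine ⟨by decide, fun _ => rfl, fun _ => rfl⟩

/-- action of a permutation. -/
def aT (σ : Pm) (t : T4) : T4 := (σ t.1, σ t.2.1, σ t.2.2.1, σ t.2.2.2)

theorem ph_aT (σ : Pm) (t : T4) : ph (aT σ t) = σ ∘ ph t := by
  funext i
  fin_cases i <;> rfl

/-- permutations fixing the labels. -/
def Fx (l : ℕ) (σ : Pm) : Prop := (0 < l → σ 0 = 0) ∧ (1 < l → σ 1 = 1)

theorem Fx.inv {l : ℕ} {σ : Pm} (h : Fx l σ) : Fx l σ⁻¹ := by
  refine ⟨fun hl => ?_, fun hl => ?_⟩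
  · rw [Equiv.Perm.inv_eq_iff_eq]; exact (h.1 hl).symm
  · rw [Equiv.Perm.inv_eq_iff_eq]; exact (h.2 hl).symm

theorem In.act {l : ℕ} {σ : Pm} (h : Fx l σ) {t : T4} (ht : In l t) : In l (aT σ t) := by
  obtain ⟨⟨a1, a2, a3, a4, a5, a6⟩, b, c⟩ := ht
  have hi := σ.injective
  refine ⟨⟨hi.ne a1, hi.ne a2, hi.ne a3, hi.ne a4, hi.ne a5, hi.ne a6⟩, fun hl => ?_, fun hl => ?_⟩
  · show σ t.1 = 0
    rw [b hl]; exact h.1 hl
  · show σ t.2.1 = 1
    rw [c hl]; exact h.2 hl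

/-- action on placements. -/
def aPl {l : ℕ} {σ : Pm} (h : Fx l σ) : Pl l ≃ Pl l where
  toFun t := ⟨aT σ t.1, t.2.act h⟩
  invFun t := ⟨aT σ⁻¹ t.1, t.2.act h.inv⟩
  left_inv t := Subtype.ext (by simp [aT])
  right_inv t := Subtype.ext (by simp [aT])

/-- extension of a partial injection. -/
theorem ext_perm (L : List (Fin 6 × Fin 6)) : (L.map Prod.fst).Nodup → (L.map Prod.snd).Nodup →
    ∃ σ : Pm, ∀ p ∈ L, σ p.1 = p.2 := by
  induction L with
  | nil => intro _ _; exact ⟨1, by simp⟩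
  | cons a L ih =>
    intro h1 h2
    rw [List.map_cons, List.nodup_cons] at h1 h2
    obtain ⟨σ, hσ⟩ := ih h1.2 h2.2
    refine ⟨Equiv.swap (σ a.1) a.2 * σ, fun p hp => ?_⟩
    rcases List.mem_cons.1 hp with rfl | hp
    · show Equiv.swap (σ p.1) p.2 (σ p.1) = p.2
      rw [Equiv.swap_apply_left]
    · show Equiv.swap (σ a.1) a.2 (σ p.1) = p.2
      rw [hσ p hp]
      have e1 : p.2 ≠ a.2 := fun h => h2.1 (List.mem_map.2 ⟨p, hp, h⟩)
      have e2 : p.2 ≠ σ a.1 := fun h => by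
        rw [← hσ p hp] at h
        exact h1.1 (List.mem_map.2 ⟨p, hp, σ.injective h⟩)
      exact Equiv.swap_apply_of_ne_of_ne e2 e1

theorem exists_pl {l : ℕ} (t : Pl l) : ∃ σ : Pm, Fx l σ ∧ aT σ t0 = t.1 := by
  obtain ⟨⟨a, b, c, d⟩, ⟨a1, a2, a3, a4, a5, a6⟩, hb, hc⟩ := t
  simp only at a1 a2 a3 a4 a5 a6 hb hc
  obtain ⟨σ, hσ⟩ := ext_perm [((0 : Fin 6), a), (1, b), (2, c), (3, d)]
    (by show ([0, 1, 2, 3] : List (Fin 6)).Nodup; decide)
    (by simp [a1, a2, a3, a4, a5, a6])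
  have h0 := hσ (0, a) (by simp)
  have h1 := hσ (1, b) (by simp)
  have h2 := hσ (2, c) (by simp)
  have h3 := hσ (3, d) (by simp)
  simp only at h0 h1 h2 h3
  refine ⟨σ, ⟨fun hl => ?_, fun hl => ?_⟩, ?_⟩
  · rw [h0]; exact hb hl
  · rw [h1]; exact hc hl
  · show (σ 0, σ 1, σ 2, σ 3) = (a, b, c, d)
    rw [h0, h1, h2, h3]

/-! ### Products -/

/-- flags: up to four vertices on each side. -/
abbrev Fl : Type := Option (Fin 4) → Option (Fin 4) → ℤ

theorem push_perm {P Q : Type} [Fintype P] [Fintype Q] [DecidableEq P] [DecidableEq Q]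
    (σ τ : Pm) (φ : P → Fin 6) (ψ : Q → Fin 6) (n : Option P → Option Q → ℤ)
    (p q : Option (Fin 6)) :
    push (σ ∘ φ) (τ ∘ ψ) n (p.map σ) (q.map τ) = push φ ψ n p q := by
  unfold push
  refine Finset.sum_congr rfl fun a _ => Finset.sum_congr rfl fun b _ => ?_
  have h1 : (a.map (σ ∘ φ) = p.map σ) ↔ (a.map φ = p) := by
    rw [← Option.map_map]
    exact (Option.map_injective σ.injective).eq_iff
  have h2 : (b.map (τ ∘ ψ) = q.map τ) ↔ (b.map ψ = q) := by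
    rw [← Option.map_map]
    exact (Option.map_injective τ.injective).eq_iff
  simp only [h1, h2]

variable {F : Bool → Mt → ℝ}

/-- the product of two flags for given placements. -/
noncomputable def tF (F : Bool → Mt → ℝ) (b : Bool) (n n' : Fl) (φ ψ φ' ψ' : Fin 4 → Fin 6) : ℝ :=
  F b (fun p q => push φ ψ n p q - push φ' ψ' n' p q)

theorem tF_perm (hC : Cls F) (b : Bool) (n n' : Fl) (φ ψ φ' ψ' : Fin 4 → Fin 6) (σ τ : Pm) :
    tF F b n n' (σ ∘ φ) (τ ∘ ψ) (σ ∘ φ') (τ ∘ ψ') = tF F b n n' φ ψ φ' ψ' := by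
  unfold tF
  rw [← hC.perm b (fun p q => push (σ ∘ φ) (τ ∘ ψ) n p q - push (σ ∘ φ') (τ ∘ ψ') n' p q) σ τ]
  simp only [push_perm]

/-- sum over the placements of the second flag. -/
noncomputable def sF (F : Bool → Mt → ℝ) (lr lc : ℕ) (b : Bool) (n n' : Fl) : ℝ :=
  ∑ f : Pl lr, ∑ g : Pl lc, tF F b n n' (ph t0) (ph t0) (ph f.1) (ph g.1)

theorem sF_any (hC : Cls F) {lr lc : ℕ} (b : Bool) (n n' : Fl) (e : Pl lr) (e' : Pl lc) :
    ∑ f : Pl lr, ∑ g : Pl lc, tF F b n n' (ph e.1) (ph e'.1) (ph f.1) (ph g.1)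
      = sF F lr lc b n n' := by
  obtain ⟨σ, h1, hσ⟩ := exists_pl e
  obtain ⟨τ, h2, hτ⟩ := exists_pl e'
  unfold sF
  symm
  refine Fintype.sum_equiv (aPl h1) _ _ fun f => ?_
  refine Fintype.sum_equiv (aPl h2) _ _ fun g => ?_
  have h3 : ((aPl h1) f).1 = aT σ f.1 := rfl
  have h4 : ((aPl h2) g).1 = aT τ g.1 := rfl
  rw [h3, h4, ← hσ, ← hτ, ph_aT, ph_aT, ph_aT, ph_aT]
  exact (tF_perm hC b n n' _ _ _ _ σ τ).symm

/-- negated flag. -/
def ng (n : Fl) : Fl := fun p q => - n p q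

theorem ng_ng (n : Fl) : ng (ng n) = n := by funext p q; simp [ng]

theorem push_ng (φ ψ : Fin 4 → Fin 6) (n : Fl) (p q : Option (Fin 6)) :
    push φ ψ (ng n) p q = - push φ ψ n p q := by
  unfold push ng
  rw [← Finset.sum_neg_distrib]
  refine Finset.sum_congr rfl fun a _ => ?_
  rw [← Finset.sum_neg_distrib]
  refine Finset.sum_congr rfl fun b _ => ?_
  split_ifs <;> simp

theorem sF_ng (hC : Cls F) (lr lc : ℕ) (b : Bool) (n n' : Fl) :
    sF F lr lc b (ng n) (ng n') = sF F lr lc b n n' := by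
  unfold sF
  refine Finset.sum_congr rfl fun f _ => Finset.sum_congr rfl fun g _ => ?_
  unfold tF
  simp only [push_ng]
  rw [← hC.neg b (fun p q => push (ph t0) (ph t0) n p q - push (ph f.1) (ph g.1) n' p q)]
  congr 1
  funext p q
  ring

instance (l : ℕ) : Nonempty (Pl l) := ⟨⟨t0, in_t0 l⟩⟩

/-- **Squares of flags with internal vertices.** -/
theorem sosP (hC : Cls F) (hS : SqF F) (lr lc : ℕ) {ι : Type} [Fintype ι] (G : ι → ι → ℝ)
    (hG : PSDF G) (b : ι → Bool) (n : ι → Fl) :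
    0 ≤ ∑ i, ∑ j, G i j * ((par6 (b i) (b j) : ℝ) * sF F lr lc (xor (b i) (b j)) (n i) (n j)) := by
  have h1 := hS (ι × (Pl lr × Pl lc)) (fun i j => G i.1 j.1) hG.ones (fun i => b i.1)
    (fun i => push (ph i.2.1.1) (ph i.2.2.1) (n i.1))
  have e0 := sum4 (ι := ι) (κ := Pl lr × Pl lc) fun i e j f =>
    G i j * ((par6 (b i) (b j) : ℝ) *
      tF F (xor (b i) (b j)) (n i) (n j) (ph e.1.1) (ph e.2.1) (ph f.1.1) (ph f.2.1))
  have h2 : 0 ≤ ∑ i : ι × (Pl lr × Pl lc), ∑ j : ι × (Pl lr × Pl lc), G i.1 j.1 *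
      ((par6 (b i.1) (b j.1) : ℝ) * tF F (xor (b i.1) (b j.1)) (n i.1) (n j.1)
        (ph i.2.1.1) (ph i.2.2.1) (ph j.2.1.1) (ph j.2.2.1)) := h1
  rw [e0] at h2
  set N : ℕ := Fintype.card (Pl lr × Pl lc) with hN
  have hNpos : (0 : ℝ) < N := by
    have : 0 < N := Fintype.card_pos
    exact_mod_cast this
  have hin : ∀ (c p : ℝ) (b : Bool) (n n' : Fl) (e : Pl lr × Pl lc),
      ∑ f : Pl lr × Pl lc, c * (p * tF F b n n' (ph e.1.1) (ph e.2.1) (ph f.1.1) (ph f.2.1))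
        = c * (p * sF F lr lc b n n') := by
    intro c p b n n' e
    rw [← Finset.mul_sum, ← Finset.mul_sum, Fintype.sum_prod_type]
    rw [← sF_any hC b n n' e.1 e.2]
  have e1 : ∑ i, ∑ j, ∑ e : Pl lr × Pl lc, ∑ f : Pl lr × Pl lc,
      G i j * ((par6 (b i) (b j) : ℝ) *
      tF F (xor (b i) (b j)) (n i) (n j) (ph e.1.1) (ph e.2.1) (ph f.1.1) (ph f.2.1))
      = N * ∑ i, ∑ j, G i j * ((par6 (b i) (b j) : ℝ) *
        sF F lr lc (xor (b i) (b j)) (n i) (n j)) := by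
    rw [Finset.mul_sum]
    refine Finset.sum_congr rfl fun i _ => ?_
    rw [Finset.mul_sum]
    refine Finset.sum_congr rfl fun j _ => ?_
    rw [Finset.sum_congr rfl fun e _ => hin (G i j) (par6 (b i) (b j) : ℝ)
      (xor (b i) (b j)) (n i) (n j) e, Finset.sum_const, Finset.card_univ, nsmul_eq_mul]
  rw [e1] at h2
  exact nonneg_of_mul_nonneg_right h2 hNpos

/-- sum over the two images. -/
noncomputable def s2 (F : Bool → Mt → ℝ) (lr lc : ℕ) (ec : ℝ) (b : Bool) (n n' : Fl) : ℝ :=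
  sF F lr lc b n n' + ec * sF F lr lc b n (ng n')

/-- **Squares symmetrised under conjugation.** -/
theorem sosS (hC : Cls F) (hS : SqF F) (lr lc : ℕ) {ι : Type} [Fintype ι] (G : ι → ι → ℝ)
    (hG : PSDF G) (b : ι → Bool) (n : ι → Fl) {ec : ℝ} (h2 : ec * ec = 1) :
    0 ≤ ∑ i, ∑ j, G i j * ((par6 (b i) (b j) : ℝ) *
      s2 F lr lc ec (xor (b i) (b j)) (n i) (n j)) := by
  have h := sosP hC hS lr lc _ (hG.twist fun e : Bool => if e then ec else 1)
    (fun i => b i.1) (fun i => if i.2 then ng (n i.1) else n i.1)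
  have e0 := sum4 (ι := ι) (κ := Bool) fun i e j f =>
    G i j * ((if e then ec else 1) * (if f then ec else 1)) * ((par6 (b i) (b j) : ℝ) *
      sF F lr lc (xor (b i) (b j)) (if e then ng (n i) else n i) (if f then ng (n j) else n j))
  have h' : 0 ≤ ∑ i : ι × Bool, ∑ j : ι × Bool,
      G i.1 j.1 * ((if i.2 then ec else 1) * (if j.2 then ec else 1)) *
      ((par6 (b i.1) (b j.1) : ℝ) * sF F lr lc (xor (b i.1) (b j.1))
        (if i.2 then ng (n i.1) else n i.1) (if j.2 then ng (n j.1) else n j.1)) := h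
  rw [e0] at h'
  have hng : ∀ b m m', sF F lr lc b (ng m) m' = sF F lr lc b m (ng m') := fun b m m' => by
    rw [← sF_ng hC lr lc b m (ng m'), ng_ng]
  have e1 : ∑ i, ∑ j, ∑ e : Bool, ∑ f : Bool,
      G i j * ((if e then ec else 1) * (if f then ec else 1)) * ((par6 (b i) (b j) : ℝ) *
      sF F lr lc (xor (b i) (b j)) (if e then ng (n i) else n i) (if f then ng (n j) else n j))
      = 2 * ∑ i, ∑ j, G i j * ((par6 (b i) (b j) : ℝ) *
        s2 F lr lc ec (xor (b i) (b j)) (n i) (n j)) := by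
    rw [Finset.mul_sum]
    refine Finset.sum_congr rfl fun i _ => ?_
    rw [Finset.mul_sum]
    refine Finset.sum_congr rfl fun j _ => ?_
    simp only [Fintype.sum_bool, if_true, if_false, Bool.false_eq_true, hng, ng_ng]
    unfold s2
    linear_combination (G i j * ((par6 (b i) (b j) : ℝ) *
      sF F lr lc (xor (b i) (b j)) (n i) (n j))) * h2
  rw [e1] at h'
  linarith

end Vale.Agent.P355.H129W
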