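import Vale.Agent.P355.H129W.Chk

/-! The checked blocks are sums of squares. -/

namespace Vale.Agent.P355.H129W

open Finset Vale.Agent.P355
open Vale.Agent.P355.H138 hiding Fg cv
open Vale.Agent.P355.H693.Inj hiding okL
open Vale.Agent.P355.H129 (dg Gm Gm_comm psdCk psdCk_nonneg psdCk_bdd)
open Vale.Agent.P355.H387 (Cls CT evL)
open Vale.Agent.P355.H693W (SqF PSDF)
open Vale.Agent.P355.H129V (Fg qd tri_sum par6_comm psdF)

variable {F : Bool → Mt → ℝ}

theorem tF_comm (hC : Cls F) (b : Bool) (n n' : Fl) (φ ψ φ' ψ' : Fin 4 → Fin 6) :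
    tF F b n n' φ ψ φ' ψ' = tF F b n' n φ' ψ' φ ψ := by
  unfold tF
  rw [← hC.neg b (fun p q => push φ' ψ' n' p q - push φ ψ n p q)]
  congr 1
  funext p q
  ring

theorem sF_all (hC : Cls F) (lr lc : ℕ) (b : Bool) (n n' : Fl) :
    ∑ e : Pl lr × Pl lc, ∑ f : Pl lr × Pl lc,
      tF F b n n' (ph e.1.1) (ph e.2.1) (ph f.1.1) (ph f.2.1)
      = (Fintype.card (Pl lr × Pl lc) : ℝ) * sF F lr lc b n n' := by
  have h : ∀ e : Pl lr × Pl lc, ∑ f : Pl lr × Pl lc,
      tF F b n n' (ph e.1.1) (ph e.2.1) (ph f.1.1) (ph f.2.1) = sF F lr lc b n n' := by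
    intro e
    rw [Fintype.sum_prod_type, ← sF_any hC b n n' e.1 e.2]
  rw [Finset.sum_congr rfl fun e _ => h e, Finset.sum_const, Finset.card_univ, nsmul_eq_mul]

theorem sF_comm (hC : Cls F) (lr lc : ℕ) (b : Bool) (n n' : Fl) :
    sF F lr lc b n n' = sF F lr lc b n' n := by
  have h1 := sF_all hC lr lc b n n'
  have h2 := sF_all hC lr lc b n' n
  rw [Finset.sum_comm] at h1
  have h3 : ∑ f : Pl lr × Pl lc, ∑ e : Pl lr × Pl lc,
      tF F b n n' (ph e.1.1) (ph e.2.1) (ph f.1.1) (ph f.2.1)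
      = ∑ e : Pl lr × Pl lc, ∑ f : Pl lr × Pl lc,
      tF F b n' n (ph e.1.1) (ph e.2.1) (ph f.1.1) (ph f.2.1) :=
    Finset.sum_congr rfl fun f _ => Finset.sum_congr rfl fun e _ => tF_comm hC b n n' _ _ _ _
  rw [h3, h2] at h1
  have hpos : (0 : ℝ) < (Fintype.card (Pl lr × Pl lc) : ℝ) := by
    have : 0 < Fintype.card (Pl lr × Pl lc) := Fintype.card_pos
    exact_mod_cast this
  exact (mul_left_cancel₀ hpos.ne' h1).symm

theorem pv_comm (hC : Cls F) (lr lc : ℕ) (f f' : Fg) (q0 q1 : ℝ) :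
    pv F lr lc f f' q0 q1 = pv F lr lc f' f q0 q1 := by
  have h2 : ∀ b n n', sF F lr lc b n (ng n') = sF F lr lc b n' (ng n) := fun b n n' => by
    rw [sF_comm hC lr lc b n (ng n'), ← sF_ng hC lr lc b (ng n') n, ng_ng]
  unfold pv
  rw [par6_comm, Bool.xor_comm, sF_comm hC lr lc _ (fl4 f) (fl4 f'), h2 _ (fl4 f) (fl4 f')]

/-- the columns of the data. -/
def U0s (T : List RT) : List ℕ := T.map fun e => e.1
def U1s (T : List RT) : List ℕ := T.map fun e => e.2.1

theorem getD_U0 (T : List RT) (i : ℕ) : (U0s T).getD i 0 = (T.getD i default).1 :=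
  List.getD_map (f := fun e : RT => e.1) (l := T) (n := i) (d := default)
theorem getD_U1 (T : List RT) (i : ℕ) : (U1s T).getD i 0 = (T.getD i default).2.1 :=
  List.getD_map (f := fun e : RT => e.2.1) (l := T) (n := i) (d := default)

/-- one block is nonnegative. -/
theorem blk_nonneg (hC : Cls F) (hS : SqF F) (lr lc : ℕ) (fl : List Fg)
    {w bu bl v n c o oU δ : ℕ} {Us Cs : List ℕ} (h : psdCk w bu bl v n c o oU δ Us Cs = true)
    {ec : ℝ} (h2 : ec * ec = 1) :
    0 ≤ ∑ k ∈ range n, ∑ l ∈ range n, (Gm w oU Us k l : ℝ) *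
      ((par6 (fl.getD k default).par (fl.getD l default).par : ℝ) *
        s2 F lr lc ec (xor (fl.getD k default).par (fl.getD l default).par)
          (fl4 (fl.getD k default)) (fl4 (fl.getD l default))) := by
  have h3 := sosS hC hS lr lc _ (psdF h) (fun i : Fin n => (fl.getD i default).par)
    (fun i : Fin n => fl4 (fl.getD i default)) h2
  refine h3.trans_eq ?_
  rw [Finset.sum_range]
  refine Finset.sum_congr rfl fun i _ => ?_
  rw [Finset.sum_range]

/-- **the checked blocks are nonnegative.** -/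
theorem Rvs_nonneg (hC : Cls F) (hS : SqF F) {lr lc : ℕ} {fl : List Fg} {w oU n : ℕ}
    {T : List RT} {bu0 bl0 v0 c0 o0 δ0 bu1 bl1 v1 c1 o1 δ1 : ℕ} {Cs0 Cs1 : List ℕ}
    (k0 : psdCk w bu0 bl0 v0 n c0 o0 oU δ0 (U0s T) Cs0 = true)
    (k1 : psdCk w bu1 bl1 v1 n c1 o1 oU δ1 (U1s T) Cs1 = true) :
    0 ≤ Rvs F lr lc w oU fl T fl 0 := by
  have hn : T.length = n := by
    have := (psdCk_bdd k0).1
    unfold U0s at this
    rwa [List.length_map] at this
  set fk : ℕ → Fg := fun k => fl.getD k default with hfk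
  set a : ℕ → ℕ → ℝ := fun k l => pv F lr lc (fk k) (fk l) (Gm w oU (U0s T) k l : ℝ)
    (Gm w oU (U1s T) k l : ℝ) with ha
  have hac : ∀ k l, a k l = a l k := fun k l => by
    simp only [ha]
    rw [pv_comm hC, Gm_comm w oU (U0s T) k l, Gm_comm w oU (U1s T) k l]
  have h1 : Rvs F lr lc w oU fl T fl 0 = ∑ k ∈ range n, ∑ l ∈ range n, a k l := by
    rw [tri_sum n a hac]
    unfold Rvs
    rw [hn]
    refine sum_congr rfl fun k _ => ?_
    unfold rv'
    rw [zero_add]
    have hG : ∀ (Us : List ℕ) (U : ℕ), Us.getD k 0 = U → ∀ l ≤ k,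
        qd w oU U l = (Gm w oU Us k l : ℝ) := by
      intro Us U hU l hl
      unfold qd Gm
      rw [max_eq_left hl, min_eq_right hl, hU]
      push_cast
      rfl
    have g0 := hG (U0s T) _ (getD_U0 T k)
    have g1 := hG (U1s T) _ (getD_U1 T k)
    rw [g0 k le_rfl, g1 k le_rfl]
    congr 1
    refine sum_congr rfl fun l hl => ?_
    have hl' := (mem_range.1 hl).le
    rw [g0 l hl', g1 l hl']
  rw [h1]
  have b0 := blk_nonneg hC hS lr lc fl k0 (ec := 1) (by norm_num)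
  have b1 := blk_nonneg hC hS lr lc fl k1 (ec := -1) (by norm_num)
  refine (add_nonneg b0 b1).trans_eq ?_
  simp only [← sum_add_distrib]
  refine sum_congr rfl fun k _ => sum_congr rfl fun l _ => ?_
  simp only [ha, hfk]
  unfold pv s2
  ring

/-- concatenation of chunks. -/
theorem Rvs_append (lr lc w oU : ℕ) (fl : List Fg) (T T' : List RT) (i j : ℕ)
    (hj : i + T.length = j) :
    Rvs F lr lc w oU fl (T ++ T') (fl.drop i) i
      = Rvs F lr lc w oU fl T (fl.drop i) i + Rvs F lr lc w oU fl T' (fl.drop j) j := by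
  unfold Rvs
  rw [List.length_append, Finset.sum_range_add]
  congr 1
  · refine sum_congr rfl fun a ha => ?_
    rw [List.getD_append _ _ _ _ (mem_range.1 ha)]
  · refine sum_congr rfl fun a ha => ?_
    rw [List.getD_append_right _ _ _ _ (Nat.le_add_right _ _), Nat.add_sub_cancel_left]
    have e : i + (T.length + a) = j + a := by omega
    rw [e]
    congr 1
    simp only [List.getD_eq_getElem?_getD, List.getElem?_drop]
    rw [e]

/-! ### Glue -/

/-- the rows from `i` on have the value of the list, for every class functional `F`. -/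
structure CU (F : Bool → Mt → ℝ) (ct : CT) (lr lc w oU : ℕ) (fl : List Fg) (i : ℕ)
    (T : List RT) (o : List (ℕ × ℕ)) : Prop where
  val : Rvs F lr lc w oU fl T (fl.drop i) i = evL F ct o

theorem CU.of_ck (hF : Cls F) {ct : CT} {PR PC : List (List (List (ℕ × ℕ × ℕ)))} {lr lc : ℕ}
    (hR : TOK PR lr) (hC : TOK PC lc) {w oU : ℕ} {fl : List Fg} (hfl : fl.all okU = true)
    {i : ℕ} {T : List RT} {o : List (ℕ × ℕ)} (h : ckU ct PR PC fl w oU i T o = true) :
    CU F ct lr lc w oU fl i T o := ⟨ckU_sound hF hR hC hfl h⟩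

theorem CU.app {ct : CT} {lr lc w oU : ℕ} {fl : List Fg} {i j : ℕ} {T T' : List RT}
    {o o' : List (ℕ × ℕ)} (h : CU F ct lr lc w oU fl i T o) (hj : i + T.length = j)
    (h' : CU F ct lr lc w oU fl j T' o') : CU F ct lr lc w oU fl i (T ++ T') (o ++ o') := by
  refine ⟨?_⟩
  rw [Rvs_append lr lc w oU fl T T' i j hj, h.val, h'.val, H387.evL_append]

theorem CU.nonneg (hC : Cls F) (hS : SqF F) {ct : CT} {lr lc : ℕ} {fl : List Fg} {w oU n : ℕ}
    {T : List RT} {o : List (ℕ × ℕ)} (h : CU F ct lr lc w oU fl 0 T o)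
    {bu0 bl0 v0 c0 o0 δ0 bu1 bl1 v1 c1 o1 δ1 : ℕ} {Cs0 Cs1 : List ℕ}
    (k0 : psdCk w bu0 bl0 v0 n c0 o0 oU δ0 (U0s T) Cs0 = true)
    (k1 : psdCk w bu1 bl1 v1 n c1 o1 oU δ1 (U1s T) Cs1 = true) : 0 ≤ evL F ct o := by
  rw [← h.val]
  exact Rvs_nonneg hC hS k0 k1

end Vale.Agent.P355.H129W
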