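import Vale.Agent.P355.H129W.Chk

/-! Patterns for 1 labels. -/

namespace Vale.Agent.P355.H129W

/-- the table. -/
def PT1 : List (List (List (ℕ × ℕ × ℕ))) := [
  [[(60, 2891866199040, 102261120)],
   [(60, 2891877209088, 102285696)],
   [(60, 2903151498240, 105431424)],
   [(60, 11561805566976, 407421312)]],
  [[(60, 2891866199040, 102261120)],
   [(12, 2891877209088, 102285696), (48, 2891888219136, 102310272)],
   [(12, 2903151498240, 105431424), (12, 2897525363712, 103883136), (36, 2908799652864, 107028864)],
   [(12, 11561805566976, 407421312), (12, 11556179432448, 405873024),
    (12, 5795017675776, 207692160), (24, 14453671744512, 509682048)]],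
  [[(60, 2891866199040, 102261120)],
   [(12, 2891877209088, 102285696), (12, 2891888219136, 102310272), (36, 2891899229184, 102334848)],
   [(3, 2903151498240, 105431424), (9, 2908788642816, 107004288), (3, 2897525363712, 103883136),
    (9, 2908799652864, 107028864), (9, 2897536373760, 103907712), (9, 2903173518336, 105480576),
    (18, 2914447807488, 108626304)],
   [(3, 11561805566976, 407421312), (3, 8681224688640, 308330880),
    (6, 14453660734464, 509657472), (3, 11556179432448, 405873024),
    (3, 5795017675776, 207692160), (6, 14453671744512, 509682048),
    (3, 8669972419584, 305234304), (6, 14442408465408, 506560896),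
    (3, 5789391541248, 206143872), (6, 14448045609984, 508133760),
    (6, 5800665830400, 209289600), (6, 8686883853312, 309952896), (6, 17345537922048, 611942784)]],
  [[(60, 2891866199040, 102261120)],
   [(12, 2891877209088, 102285696), (12, 2891888219136, 102310272),
    (12, 2891899229184, 102334848), (24, 2891910239232, 102359424)],
   [(3, 2903151498240, 105431424), (3, 2908788642816, 107004288), (6, 2914425787392, 108577152),
    (3, 2897525363712, 103883136), (3, 2908799652864, 107028864), (6, 2914436797440, 108601728),
    (3, 2897536373760, 103907712), (3, 2903173518336, 105480576), (6, 2914447807488, 108626304),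
    (6, 2897547383808, 103932288), (6, 2903184528384, 105505152), (6, 2908821672960, 107078016),
    (6, 2920095962112, 110223744)],
   [(1, 11561805566976, 407421312), (2, 14448023589888, 508084608),
    (1, 8681224688640, 308330880), (2, 14453660734464, 509657472),
    (2, 8686861833216, 309903744), (2, 11573079856128, 410567040),
    (2, 17345515901952, 611893632), (1, 11556179432448, 405873024),
    (2, 14442397455360, 506536320), (1, 5795017675776, 207692160),
    (2, 14453671744512, 509682048), (2, 5800654820352, 209265024),
    (2, 11573090866176, 410591616), (2, 17345526912000, 611918208),
    (1, 8669972419584, 305234304), (2, 14442408465408, 506560896),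
    (1, 5789391541248, 206143872), (2, 14448045609984, 508133760),
    (2, 5800665830400, 209289600), (2, 8686883853312, 309952896),
    (2, 17345537922048, 611942784), (2, 8669983429632, 305258880),
    (2, 11556201452544, 405922176), (2, 17328637498368, 607248768),
    (2, 5789402551296, 206168448), (2, 11561838597120, 407495040),
    (2, 17334274642944, 608821632), (2, 5795039695872, 207741312),
    (2, 8681257718784, 308404608), (2, 17339911787520, 610394496),
    (2, 5806313985024, 210887040), (2, 8692532007936, 311550336), (2, 11578750030848, 412213632)]]]

theorem tok1 : TOK PT1 1 := by
  unfold TOK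
  decide +kernel

end Vale.Agent.P355.H129W
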