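import Vale.Agent.P355.H129W.Chk

/-! Patterns for 2 labels. -/

namespace Vale.Agent.P355.H129W

/-- the table. -/
def PT2 : List (List (List (ℕ × ℕ × ℕ))) := [
  [[(12, 2891866199040, 102261120)],
   [(12, 2891877209088, 102285696)],
   [(12, 2903151498240, 105431424)],
   [(12, 11561805566976, 407421312)]],
  [[(12, 2891866199040, 102261120)],
   [(12, 2891877209088, 102285696)],
   [(12, 2903151498240, 105431424)],
   [(12, 11561805566976, 407421312)]],
  [[(12, 2891866199040, 102261120)],
   [(12, 2891877209088, 102285696)],
   [(3, 2903151498240, 105431424), (9, 2908788642816, 107004288)],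
   [(3, 11561805566976, 407421312), (3, 8681224688640, 308330880), (6, 14453660734464, 509657472)]],
  [[(12, 2891866199040, 102261120)],
   [(12, 2891877209088, 102285696)],
   [(3, 2903151498240, 105431424), (3, 2908788642816, 107004288), (6, 2914425787392, 108577152)],
   [(1, 11561805566976, 407421312), (2, 14448023589888, 508084608),
    (1, 8681224688640, 308330880), (2, 14453660734464, 509657472),
    (2, 8686861833216, 309903744), (2, 11573079856128, 410567040), (2, 17345515901952, 611893632)]]]

theorem tok2 : TOK PT2 2 := by
  unfold TOK
  decide +kernel

end Vale.Agent.P355.H129W
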