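import Vale.Agent.P355.H129W.Plc

/-! Tuples of positions: canonical positions (checked for all tuples). -/

namespace Vale.Agent.P355.H129W

open Finset Vale.Agent.P355 Vale.Agent.P355.H138 Vale.Agent.P355.H693.Inj

/-- one step of the canonical position. -/
def c0 (ck cl i n : ℕ) (a : Fin 6) : Fin 6 × ℕ :=
  if i < cl then (if a.val < ck then (a, n) else (Fin.ofNat 6 (ck + n), n + 1)) else (0, n)

/-- canonical position. -/
def cn (ck cl : ℕ) (t : T4) : T4 :=
  let r0 := c0 ck cl 0 0 t.1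
  let r1 := c0 ck cl 1 r0.2 t.2.1
  let r2 := c0 ck cl 2 r1.2 t.2.2.1
  let r3 := c0 ck cl 3 r2.2 t.2.2.2
  (r0.1, r1.1, r2.1, r3.1)

/-- moved positions. -/
def m1 (ck cl i : ℕ) (a b : Fin 6) : List (Fin 6 × Fin 6) :=
  if i < cl ∧ ¬ a.val < ck then [(a, b)] else []

/-- all conditions on the permutation. -/
def cL (ck cl : ℕ) (t : T4) : List (Fin 6 × Fin 6) :=
  ((List.finRange 6).filter fun p => decide (p.val < ck)).map (fun p => (p, p)) ++
  (m1 ck cl 0 t.1 (cn ck cl t).1 ++ (m1 ck cl 1 t.2.1 (cn ck cl t).2.1 ++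
  (m1 ck cl 2 t.2.2.1 (cn ck cl t).2.2.1 ++ m1 ck cl 3 t.2.2.2 (cn ck cl t).2.2.2)))

/-- all tuples. -/
def AL : List T4 := (List.finRange 6).product ((List.finRange 6).product
  ((List.finRange 6).product (List.finRange 6)))

theorem AL_mem (t : T4) : t ∈ AL := by
  unfold AL
  obtain ⟨a, b, c, d⟩ := t
  simp [List.product, List.mem_flatMap, List.mem_finRange]

theorem AL_nodup : AL.Nodup :=
  (List.nodup_finRange 6).product ((List.nodup_finRange 6).product
    ((List.nodup_finRange 6).product (List.nodup_finRange 6)))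

/-- placements as a list. -/
def EL (l : ℕ) : List T4 := AL.filter fun t => decide (In l t)

theorem cL_ok : ∀ t ∈ EL 0, ∀ ck ∈ List.range 5, ∀ cl ∈ List.range 5,
    ((cL ck cl t).map Prod.fst).Nodup ∧ ((cL ck cl t).map Prod.snd).Nodup := by
  decide +kernel


end Vale.Agent.P355.H129W
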